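import Mathlib

set_option autoImplicit false

namespace Vale.Agent.P181.FLAT.H235

open ExteriorAlgebra

section Center

variable {V : Type*} [AddCommGroup V] [Module ℂ V]

lemma ι_comm2 (u v : V) (y : ExteriorAlgebra ℂ V) :
    (ι ℂ u * ι ℂ v) * y = y * (ι ℂ u * ι ℂ v) := by
  induction y using ExteriorAlgebra.induction with
  | algebraMap r => exact (Algebra.commutes r _).symm
  | ι w =>
    have h1 : ι ℂ v * ι ℂ w = -(ι ℂ w * ι ℂ v) :=
      eq_neg_of_add_eq_zero_left (ι_add_mul_swap v w)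
    have h2 : ι ℂ u * ι ℂ w = -(ι ℂ w * ι ℂ u) :=
      eq_neg_of_add_eq_zero_left (ι_add_mul_swap u w)
    rw [mul_assoc, h1, mul_neg, ← mul_assoc, h2, neg_mul, neg_neg, mul_assoc]
  | mul a b ha hb => rw [← mul_assoc, ha, mul_assoc, hb, mul_assoc]
  | add a b ha hb => rw [mul_add, ha, hb, add_mul]

/-- Elements of even degree of the exterior algebra are central. -/
theorem even_comm (c : ℕ) (hc : Even c) (x : ExteriorAlgebra ℂ V)
    (hx : x ∈ (LinearMap.range (ι ℂ : V →ₗ[ℂ] ExteriorAlgebra ℂ V)) ^ c)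
    (y : ExteriorAlgebra ℂ V) : x * y = y * x := by
  obtain ⟨d, rfl⟩ := hc
  have h2 : ∀ x ∈ (LinearMap.range (ι ℂ : V →ₗ[ℂ] ExteriorAlgebra ℂ V)) ^ 2,
      ∀ y : ExteriorAlgebra ℂ V, x * y = y * x := by
    intro x hx y
    rw [pow_two] at hx
    induction hx using Submodule.mul_induction_on' with
    | mem_mul_mem m hm n hn =>
      obtain ⟨u, rfl⟩ := hm
      obtain ⟨v, rfl⟩ := hn
      exact ι_comm2 u v y
    | add a _ b _ ha hb => rw [add_mul, ha, hb, mul_add]
  rw [← two_mul, pow_mul] at hx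
  induction d generalizing x with
  | zero =>
    rw [pow_zero, Submodule.mem_one] at hx
    obtain ⟨r, rfl⟩ := hx
    exact Algebra.commutes r y
  | succ d ih =>
    rw [pow_succ] at hx
    induction hx using Submodule.mul_induction_on' with
    | mem_mul_mem m hm n hn =>
      rw [mul_assoc, h2 n hn y, ← mul_assoc, ih m hm, mul_assoc]
    | add a _ b _ ha hb => rw [add_mul, ha, hb, mul_add]

end Center

variable {L b : ℕ}

/-- The coordinate at the word `k`, as an alternating form. -/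
noncomputable def phiAlt (k : Fin b → Fin L) : (Fin L → ℂ) [⋀^Fin b]→ₗ[ℂ] ℂ :=
  (Matrix.detRowAlternating (n := Fin b) (R := ℂ)).compLinearMap
    (LinearMap.funLeft ℂ ℂ k)

lemma phiAlt_apply (k : Fin b → Fin L) (v : Fin b → Fin L → ℂ) :
    phiAlt k v = ∑ π : Equiv.Perm (Fin b), (Equiv.Perm.sign π : ℂ) * ∏ j, v j (k (π j)) := by
  have h : phiAlt k v = Matrix.det (Matrix.of fun i j => v i (k j)) := rfl
  rw [h, ← Matrix.det_transpose, Matrix.det_apply']
  rfl

/-- The coordinate at the word `k`, as a linear functional on the exterior algebra. -/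
noncomputable def phi (k : Fin b → Fin L) : ExteriorAlgebra ℂ (Fin L → ℂ) →ₗ[ℂ] ℂ :=
  liftAlternating (Function.update (fun _ => 0) b (phiAlt k))

theorem phi_ιMulti (k : Fin b → Fin L) (v : Fin b → Fin L → ℂ) :
    phi k (ιMulti ℂ b v) =
      ∑ π : Equiv.Perm (Fin b), (Equiv.Perm.sign π : ℂ) * ∏ j, v j (k (π j)) := by
  rw [phi, liftAlternating_apply_ιMulti, Function.update_self, phiAlt_apply]

/-- A product of blocks. -/
theorem prod_ιMulti {V : Type*} [AddCommGroup V] [Module ℂ V] (q c : ℕ) (v : Fin (q * c) → V) :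
    (List.ofFn fun r : Fin q => ιMulti ℂ c (fun s => v (finProdFinEquiv (r, s)))).prod =
      ιMulti ℂ (q * c) v := by
  rw [ιMulti_apply, List.ofFn_mul, List.prod_flatten, List.map_ofFn]
  congr 2
  funext r
  rw [ιMulti_apply]
  simp only [Function.comp_apply]
  congr 2
  funext s
  congr 2
  apply Fin.ext
  simp [finProdFinEquiv, mul_comm, add_comm]

/-- The degree `b` part is spanned by the products of `b` vectors. -/
theorem span_ιMulti {V : Type*} [AddCommGroup V] [Module ℂ V] (b : ℕ) :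
    Submodule.span ℂ (Set.range (ιMulti ℂ b : (Fin b → V) → ExteriorAlgebra ℂ V)) =
      (LinearMap.range (ι ℂ : V →ₗ[ℂ] ExteriorAlgebra ℂ V)) ^ b :=
  ιMulti_span_fixedDegree ℂ b

end Vale.Agent.P181.FLAT.H235
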