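import Vale.Agent.P181.FLAT.H246.Lef
import Vale.Agent.P181.FLAT.H235.Ext

set_option autoImplicit false

namespace Vale.Agent.P181.FLAT.H235

open ExteriorAlgebra

/-- The literal of [PEEL] for one algebra. -/
def PeelStmt (A : Type) [Ring A] [Algebra ℂ A] : Prop :=
  ∀ (U Z : Submodule ℂ A), (∀ x ∈ U, ∀ y : A, x * y = y * x) → ∀ (q N : ℕ),
    (∀ F ∈ U, ∀ G ∈ U, ∀ H ∈ U, ∀ i j, i + j = q → F ^ i * G ^ j * H ∈ Z) →
    ∀ (Ω : A), Ω ∈ U → (∀ v ∈ Z, ∃ u ∈ U, Ω ^ q * u = v) →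
    ∀ (T : MultilinearMap ℂ (fun _ : Fin N => A) ℂ),
      (∀ (σ : Equiv.Perm (Fin N)) v, T (fun i => v (σ i)) = T v) →
      (∀ F ∈ U, T (fun _ => F ^ (q + 1)) = 0) →
      ∀ G : Fin N → A, (∀ i, G i ∈ Z) → T G = 0

section Gen

variable {L n : ℕ}

/-- The generators in pairs. -/
noncomputable def gen (e : Fin n × Bool ≃ Fin L) (p : Fin n × Bool) :
    ExteriorAlgebra ℂ (Fin L → ℂ) :=
  ι ℂ (Pi.single (e p) 1)

lemma span_gen (e : Fin n × Bool ≃ Fin L) : Submodule.span ℂ (Set.range (gen e)) =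
    LinearMap.range (ι ℂ : (Fin L → ℂ) →ₗ[ℂ] _) := by
  rw [LinearMap.range_eq_map, ← (Pi.basisFun ℂ (Fin L)).span_eq, Submodule.map_span,
    ← Set.range_comp]
  congr 1
  ext x
  constructor
  · rintro ⟨p, rfl⟩
    exact ⟨e p, by simp [gen]⟩
  · rintro ⟨i, rfl⟩
    exact ⟨e.symm i, by simp [gen]⟩

lemma gen_anti (e : Fin n × Bool ≃ Fin L) (i j : Fin n × Bool) :
    gen e i * gen e j = -(gen e j * gen e i) :=
  eq_neg_of_add_eq_zero_left (ι_add_mul_swap _ _)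

lemma gen_sq (e : Fin n × Bool ≃ Fin L) (i : Fin n × Bool) : gen e i * gen e i = 0 :=
  ι_sq_zero _

end Gen

/-- Powers of elements of degree `c`. -/
lemma pow_mem_deg {A : Type*} [Ring A] [Algebra ℂ A] (W : Submodule ℂ A) (c : ℕ) {F : A}
    (hF : F ∈ W ^ c) (i : ℕ) : F ^ i ∈ W ^ (c * i) := by
  rw [pow_mul]
  exact Submodule.pow_mem_pow _ hF i

/-- **Dominance of the power map on the even part of an exterior algebra**: a symmetric form on
the forms of degree `(q + 1) c` which vanishes at all `(q+1)`-st powers of forms of the even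
degree `c` is zero, if the number of letters is `(q + 2) c`. -/
theorem dom {L c q N : ℕ} (hc : Even c) (hL : L = (q + 2) * c)
    (hpeel : PeelStmt (ExteriorAlgebra ℂ (Fin L → ℂ)))
    (T : MultilinearMap ℂ (fun _ : Fin N => ExteriorAlgebra ℂ (Fin L → ℂ)) ℂ)
    (hT : ∀ (σ : Equiv.Perm (Fin N)) v, T (fun i => v (σ i)) = T v)
    (h : ∀ F ∈ (LinearMap.range (ι ℂ : (Fin L → ℂ) →ₗ[ℂ] _)) ^ c, T (fun _ => F ^ (q + 1)) = 0) :
    ∀ G : Fin N → ExteriorAlgebra ℂ (Fin L → ℂ),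
      (∀ i, G i ∈ (LinearMap.range (ι ℂ : (Fin L → ℂ) →ₗ[ℂ] _)) ^ ((q + 1) * c)) → T G = 0 := by
  obtain ⟨d, hd⟩ := hc
  have hn : L = ((q + 2) * d) * 2 := by rw [hL, hd]; ring
  have e : Fin ((q + 2) * d) × Bool ≃ Fin L := Fintype.equivFinOfCardEq (by simp [hn])
  set Om : ExteriorAlgebra ℂ (Fin L → ℂ) := ∑ i, gen e (i, false) * gen e (i, true) with hOm
  have hOm2 : Om ∈ (LinearMap.range (ι ℂ : (Fin L → ℂ) →ₗ[ℂ] _)) ^ 2 := by
    rw [pow_two]
    exact Submodule.sum_mem _ fun i _ =>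
      Submodule.mul_mem_mul (LinearMap.mem_range_self _ _) (LinearMap.mem_range_self _ _)
  refine hpeel _ _ (fun x hx y => even_comm c ⟨d, hd⟩ x hx y) q N ?_ (Om ^ d) ?_ ?_ T hT h
  · intro F hF G hG H hH i j hij
    have h1 := Submodule.mul_mem_mul (Submodule.mul_mem_mul (pow_mem_deg _ c hF i)
      (pow_mem_deg _ c hG j)) hH
    rw [← pow_add, ← pow_add] at h1
    have h2 : c * i + c * j + c = (q + 1) * c := by rw [← hij]; ring
    rwa [h2] at h1
  · have h1 := pow_mem_deg _ 2 hOm2 d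
    have h2 : 2 * d = c := by omega
    rwa [h2] at h1
  · intro v hv
    have h3 : (q + 1) * c = c + 2 * (d * q) := by rw [hd]; ring
    rw [h3] at hv
    obtain ⟨u, hu, hue⟩ := H246.lef (gen e) (gen_anti e) (gen_sq e) c (d * q)
      (by rw [hd]; ring_nf; exact le_rfl) v (by rw [span_gen]; exact hv)
    refine ⟨u, by rw [span_gen] at hu; exact hu, ?_⟩
    rw [← hue, ← pow_mul]

end Vale.Agent.P181.FLAT.H235
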