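import Vale.Agent.P181.FLAT.H302.Asm
import Vale.Agent.P181.FLAT.H235.Ext
import Vale.Agent.P181.FLAT.H246.Lef

set_option autoImplicit false

namespace Vale.Agent.P181.FLAT.H235

/-- **[EXT]**, the literal of `FLAT/H302/Asm.lean`. -/
theorem ext : Vale.Agent.P181.FLAT.ExtStmt :=
  ⟨fun _ c hc x hx y => even_comm c hc x hx y,
    fun _ _ => ⟨phi, fun k v => phi_ιMulti k v⟩,
    fun _ q c v => prod_ιMulti q c v,
    fun _ b => (span_ιMulti b).symm⟩

/-- **[LEF]**, the literal of `FLAT/H302/Asm.lean`. -/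
theorem lefStmt : Vale.Agent.P181.FLAT.LefStmt :=
  fun g h1 h2 m k h => Vale.Agent.P181.FLAT.H246.lef g h1 h2 m k h

end Vale.Agent.P181.FLAT.H235
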